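import Vale.Agent.P338.R2.H235.Slow

/-!
A control value in one file: updates, tests, loops and output of words by functions computable in
polynomial time.
-/

namespace Vale.Agent.P338.R2.H235

open Vale.Agent.P338.R2.H898 Function
open Vale.Agent.Lib.PolyTime (Enc enc esize pb PT PB)

variable {M F α : Type} [DecidableEq F] {d : α} {bit : Bool → α} {ι : ℕ → F} {W : ℕ}

/-- The file `f` holds the value `a`. -/
def HoldsVal {β : Type*} [Enc β] (bit : Bool → α) (z : F → Zip α) (f : F) (a : β) : Prop :=
  z f = ⟨[], (enc a).map bit⟩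

/-- The temporary file and the first `W` scratch files are empty. -/
def Free (ι : ℕ → F) (W : ℕ) (tmp : F) (z : F → Zip α) : Prop :=
  z tmp = ⟨[], []⟩ ∧ ∀ i < W, z (ι i) = ⟨[], []⟩

omit [DecidableEq F] in
theorem Free.mono {V W : ℕ} {tmp : F} {z : F → Zip α} (h : Free ι W tmp z) (hVW : V ≤ W) :
    Free ι V tmp z := ⟨h.1, fun i hi => h.2 i (lt_of_lt_of_le hi hVW)⟩

/-- The layout of the files used by the control: the value, a temporary file, scratch files. -/
structure Lay (ι : ℕ → F) (W : ℕ) (st tmp : F) : Prop where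
  /-- the scratch files are different -/
  inj : ∀ i < W, ∀ j < W, ι i = ι j → i = j
  /-- value and temporary file -/
  ne : st ≠ tmp
  /-- no scratch file holds the value -/
  st : ∀ i < W, ι i ≠ st
  /-- no scratch file is the temporary file -/
  tmp : ∀ i < W, ι i ≠ tmp

omit [DecidableEq F] in
theorem Lay.mono {V W : ℕ} {st tmp : F} (h : Lay ι W st tmp) (hVW : V ≤ W) :
    Lay ι V st tmp :=
  ⟨fun i hi j hj => h.inj i (lt_of_lt_of_le hi hVW) j (lt_of_lt_of_le hj hVW), h.ne,
    fun i hi => h.st i (lt_of_lt_of_le hi hVW), fun i hi => h.tmp i (lt_of_lt_of_le hi hVW)⟩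

/-! ### Update of the control value -/

/-- Replace the control value. -/
noncomputable def updProg (bit : Bool → α) (p : SProg) (st tmp : F) (ι : ℕ → F) : Prog M F α :=
  .seq (callProg bit p st tmp ι) (.seq (clr st) (.seq (copyR tmp st) (.seq (op1 st .rew)
    (clr tmp))))

theorem exists_upd {β γ : Type*} [Enc β] [Enc γ] {f : β → γ} (hf : PT ∅ f) :
    ∃ (p : SProg) (W c : ℕ), 2 ≤ W ∧ ∀ {M F α : Type} [DecidableEq F] {d : α} {bit : Bool → α}
      {ι : ℕ → F} {st tmp : F}, Lay ι W st tmp → bit true ≠ bit false →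
      ∀ (m : M) (z : F → Zip α) (a : β), HoldsVal bit z st a → Free ι W tmp z →
        Prog.Run d (updProg bit p st tmp ι : Prog M F α) ⟨m, z⟩ (pb c (esize a))
          ⟨m, update z st ⟨[], (enc (f a)).map bit⟩⟩ := by
  obtain ⟨p, W, c, hW, h⟩ := exists_call hf
  obtain ⟨c1, hc1⟩ := hf.pbd
  have hPB : PB (fun n => pb c n + 2 + (4 * pb c1 n + 1) + 1 + 2) :=
    ((((PB.pb c).add (PB.const 2)).add (((PB.const 4).mul (PB.pb c1)).add (PB.const 1))).add
      (PB.const 1)).add (PB.const 2)
  obtain ⟨c', hc'⟩ := hPB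
  refine ⟨p, W, c', hW, ?_⟩
  intro M F α _ d bit ι st tmp hL hb m z a hst hfree
  have r1 := h (d := d) (M := M) hL.inj hb hL.ne hL.st hL.tmp m z a hst hfree.1 hfree.2
  set v := (enc (f a)).map bit with hv
  have r2 := run_clr (d := d) st m (update z tmp ⟨[], v⟩)
  have r3 := run_copyR (d := d) (g := tmp) (f := st) hL.ne.symm m v [] []
    (update (update z tmp ⟨[], v⟩) st ⟨[], []⟩) (by simp [hL.ne.symm]) (by simp)
  set z3 := update (update (update (update z tmp ⟨[], v⟩) st ⟨[], []⟩) st
    ⟨v.reverse ++ [], []⟩) tmp ⟨v.reverse ++ [], []⟩ with hz3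
  have r4 := run_op1 (d := d) st .rew m z3
  have r5 := run_clr (d := d) tmp m (update z3 st (Op.rew.app d (z3 st)))
  have e5 : update (update z3 st (Op.rew.app d (z3 st))) tmp ⟨[], []⟩ =
      update z st ⟨[], v⟩ := by
    funext g
    rcases eq_or_ne g tmp with rfl | hg
    · simp [hL.ne.symm, hfree.1]
    · rcases eq_or_ne g st with rfl | hg'
      · simp [hg, hz3, Op.app]
      · simp [hg, hg', hz3]
  rw [e5] at r5
  refine (r1.seq (r2.seq (r3.seq (r4.seq r5)))).mono ?_
  have hlen : v.length ≤ pb c1 (esize a) := by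
    rw [hv, List.length_map]
    exact hc1 a
  refine le_trans ?_ (hc' (esize a))
  show _ ≤ pb c (esize a) + 2 + (4 * pb c1 (esize a) + 1) + 1 + 2
  have := Nat.mul_le_mul_left 4 hlen
  omega

/-! ### Tests -/

/-- Branch on a property of the control value. -/
noncomputable def testProg (bit : Bool → α) [DecidableEq α] (p : SProg) (st tmp : F) (ι : ℕ → F)
    (P Q : Prog M F α) : Prog M F α :=
  .seq (callProg bit p st tmp ι) (.ite (fun _ x => decide (x tmp = some (bit true)))
    (.seq (clr tmp) P) (.seq (clr tmp) Q))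

theorem exists_test {β : Type*} [Enc β] {f : β → Bool} (hf : PT ∅ f) :
    ∃ (p : SProg) (W c : ℕ), 2 ≤ W ∧ ∀ {M F α : Type} [DecidableEq F] [DecidableEq α] {d : α}
      {bit : Bool → α} {ι : ℕ → F} {st tmp : F}, Lay ι W st tmp → bit true ≠ bit false →
      ∀ (P Q : Prog M F α) (m : M) (z : F → Zip α) (a : β), HoldsVal bit z st a →
        Free ι W tmp z → ∀ (t : ℕ) (s' : Store M F α),
        Prog.Run d (if f a then P else Q) ⟨m, z⟩ t s' →
        Prog.Run d (testProg bit p st tmp ι P Q) ⟨m, z⟩ (pb c (esize a) + t) s' := by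
  obtain ⟨p, W, c, hW, h⟩ := exists_call hf
  obtain ⟨c', hc'⟩ := (PB.pb c).add (PB.const 3)
  refine ⟨p, W, c', hW, ?_⟩
  intro M F α _ _ d bit ι st tmp hL hb P Q m z a hst hfree t s' hr
  have r1 := h (d := d) (M := M) hL.inj hb hL.ne hL.st hL.tmp m z a hst hfree.1 hfree.2
  have r2 := run_clr (d := d) tmp m (update z tmp ⟨[], (enc (f a)).map bit⟩)
  have e2 : update (update z tmp ⟨[], (enc (f a)).map bit⟩) tmp ⟨[], []⟩ = z := by
    rw [update_idem, ← hfree.1, update_eq_self]
  rw [e2] at r2
  have hc := hc' (esize a)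
  cases hfa : f a with
  | true =>
    rw [hfa, if_pos rfl] at hr
    rw [hfa] at r1 r2
    refine (r1.seq (Prog.Run.iteT ?_ (r2.seq hr))).mono ?_
    · simp [Store.reads, Zip.peek, Vale.Agent.Lib.PolyTime.enc_bool]
    · simp only [pb] at hc ⊢
      omega
  | false =>
    rw [hfa, if_neg (by simp)] at hr
    rw [hfa] at r1 r2
    refine (r1.seq (Prog.Run.iteF ?_ (r2.seq hr))).mono ?_
    · simp [Store.reads, Zip.peek, Vale.Agent.Lib.PolyTime.enc_bool, hb.symm]
    · simp only [pb] at hc ⊢
      omega

/-! ### Loops -/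

/-- Loop while the control value has a property. -/
noncomputable def whileProg (bit : Bool → α) [DecidableEq α] (p : SProg) (st tmp : F)
    (ι : ℕ → F) (P : Prog M F α) : Prog M F α :=
  .seq (callProg bit p st tmp ι) (.seq (.loop (fun _ x => decide (x tmp = some (bit true)))
    (.seq (clr tmp) (.seq P (callProg bit p st tmp ι)))) (clr tmp))

theorem exists_while {β : Type*} [Enc β] {f : β → Bool} (hf : PT ∅ f) :
    ∃ (p : SProg) (W c : ℕ), 2 ≤ W ∧ ∀ {M F α : Type} [DecidableEq F] [DecidableEq α] {d : α}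
      {bit : Bool → α} {ι : ℕ → F} {st tmp : F}, Lay ι W st tmp → bit true ≠ bit false →
      ∀ (P : Prog M F α) (n : ℕ) (a : ℕ → β) (S : ℕ → Store M F α) (t : ℕ → ℕ),
        (∀ i ≤ n, HoldsVal bit (S i).z st (a i)) → (∀ i ≤ n, Free ι W tmp (S i).z) →
        (∀ i < n, f (a i) = true) → f (a n) = false →
        (∀ i < n, Prog.Run d P (S i) (t i) (S (i + 1))) →
        Prog.Run d (whileProg bit p st tmp ι P) (S 0)
          (∑ i ∈ Finset.range n, t i + ∑ i ∈ Finset.range (n + 1), pb c (esize (a i))) (S n) := by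
  obtain ⟨p, W, c, hW, h⟩ := exists_call hf
  obtain ⟨c', hc'⟩ := (PB.pb c).add (PB.const 3)
  refine ⟨p, W, c', hW, ?_⟩
  intro M F α _ _ d bit ι st tmp hL hb P n a S t hst hfree hT hF hP
  -- the store after the test
  have call : ∀ i ≤ n, Prog.Run d (callProg bit p st tmp ι : Prog M F α) (S i)
      (pb c (esize (a i))) ⟨(S i).m, update (S i).z tmp ⟨[], (enc (f (a i))).map bit⟩⟩ :=
    fun i hi => h (d := d) (M := M) hL.inj hb hL.ne hL.st hL.tmp (S i).m (S i).z (a i)
      (hst i hi) (hfree i hi).1 (hfree i hi).2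
  have clear : ∀ i ≤ n, Prog.Run d (clr tmp : Prog M F α)
      ⟨(S i).m, update (S i).z tmp ⟨[], (enc (f (a i))).map bit⟩⟩ 2 (S i) := by
    intro i hi
    have r2 := run_clr (d := d) tmp (S i).m
      (update (S i).z tmp ⟨[], (enc (f (a i))).map bit⟩)
    have e2 : update (update (S i).z tmp ⟨[], (enc (f (a i))).map bit⟩) tmp ⟨[], []⟩ =
        (S i).z := by
      rw [update_idem, ← (hfree i hi).1, update_eq_self]
    rw [e2] at r2
    exact r2
  have hloop := Prog.Run.loop (d := d)
    (c := fun (_ : M) (x : F → Option α) => decide (x tmp = some (bit true)))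
    (p := .seq (clr tmp) (.seq P (callProg bit p st tmp ι))) n
    (fun i => ⟨(S i).m, update (S i).z tmp ⟨[], (enc (f (a i))).map bit⟩⟩)
    (fun i => 2 + (t i + pb c (esize (a (i + 1))))) (by
      intro i hi
      simp [Store.reads, Zip.peek, hT i hi, Vale.Agent.Lib.PolyTime.enc_bool]) (by
      simp [Store.reads, Zip.peek, hF, Vale.Agent.Lib.PolyTime.enc_bool, hb.symm]) (by
      intro i hi
      exact (clear i (by omega)).seq ((hP i hi).seq (call (i + 1) (by omega))))
  refine ((call 0 (by omega)).seq (hloop.seq (clear n le_rfl))).mono ?_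
  have key : pb c (esize (a 0)) + ((∑ i ∈ Finset.range n,
      (2 + (t i + pb c (esize (a (i + 1)))) + 1)) + 1 + 2) =
      ∑ i ∈ Finset.range n, t i + ∑ i ∈ Finset.range (n + 1), (pb c (esize (a i)) + 3) := by
    rw [Finset.sum_range_succ' (fun i => pb c (esize (a i)) + 3)]
    simp only [Finset.sum_add_distrib]
    simp only [Finset.sum_const, Finset.card_range, smul_eq_mul]
    ring
  rw [key]
  exact Nat.add_le_add_left (Finset.sum_le_sum fun i _ => hc' _) _

/-! ### Output of words -/

/-- Decode a list of bits: copy every third symbol of `g` to `f`. -/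
def decR (g f : F) : Prog M F α :=
  .loop (fun _ x => (x g).isSome) (.seq (op1 g .right) (.seq (cpy g f)
    (.seq (op1 g .right) (op1 g .right))))

theorem run_decR {g f : F} (hgf : g ≠ f) (m : M) (w : List Bool) : ∀ (l l' : List α)
    (z : F → Zip α), z g = ⟨l, (enc w).map bit⟩ → z f = ⟨l', []⟩ →
    Prog.Run d (decR g f : Prog M F α) ⟨m, z⟩ (6 * w.length + 1)
      ⟨m, update (update z f ⟨(w.map bit).reverse ++ l', []⟩) g
        ⟨((enc w).map bit).reverse ++ l, []⟩⟩ := by
  induction w with
  | nil =>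
    intro l l' z hg hf
    have e : update (update z f ⟨(([] : List Bool).map bit).reverse ++ l', []⟩) g
        ⟨((enc ([] : List Bool)).map bit).reverse ++ l, []⟩ = z := by
      funext x
      rcases eq_or_ne x g with rfl | hx1
      · simp [hg, Vale.Agent.Lib.PolyTime.enc_nil]
      · rcases eq_or_ne x f with rfl | hx2
        · simp [hx1, hf]
        · simp [hx1, hx2]
    rw [e]
    exact (Prog.Run.loopF (by simp [Store.reads, Zip.peek, hg,
      Vale.Agent.Lib.PolyTime.enc_nil])).mono (by omega)
  | cons b w ih =>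
    intro l l' z hg hf
    have henc : (enc (b :: w)).map bit = bit true :: bit b :: bit false :: (enc w).map bit := by
      rw [Vale.Agent.Lib.PolyTime.enc_cons, Vale.Agent.Lib.PolyTime.enc_bool]
      simp [Vale.Agent.Lib.PolyTime.pr]
    rw [henc] at hg
    have h1 := run_op1 (d := d) g .right m z
    have e1 : update z g (Op.right.app d (z g)) =
        update z g ⟨bit true :: l, bit b :: bit false :: (enc w).map bit⟩ := by
      rw [hg]; rfl
    rw [e1] at h1
    have h2 := run_cpy (d := d) (g := g) (f := f) (a := bit b) (l := bit true :: l) (l' := l')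
      (r := bit false :: (enc w).map bit) m
      (update z g ⟨bit true :: l, bit b :: bit false :: (enc w).map bit⟩) (by simp)
      (by simp [hgf.symm, hf])
    set z2 := update (update z g ⟨bit true :: l, bit b :: bit false :: (enc w).map bit⟩) f
      ⟨bit b :: l', []⟩ with hz2
    have h3 := run_op1 (d := d) g .right m z2
    have e3 : update z2 g (Op.right.app d (z2 g)) =
        update z2 g ⟨bit b :: bit true :: l, bit false :: (enc w).map bit⟩ := by
      rw [hz2, update_of_ne hgf, update_self]; rfl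
    rw [e3] at h3
    have h4 := run_op1 (d := d) g .right m
      (update z2 g ⟨bit b :: bit true :: l, bit false :: (enc w).map bit⟩)
    have e4 : update (update z2 g ⟨bit b :: bit true :: l, bit false :: (enc w).map bit⟩) g
        (Op.right.app d (update z2 g ⟨bit b :: bit true :: l, bit false :: (enc w).map bit⟩ g)) =
        update (update z f ⟨bit b :: l', []⟩) g
          ⟨bit false :: bit b :: bit true :: l, (enc w).map bit⟩ := by
      funext x
      rcases eq_or_ne x g with rfl | hx1
      · simp [Op.app]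
      · rcases eq_or_ne x f with rfl | hx2
        · simp [hx1, hz2]
        · simp [hx1, hx2, hz2]
    rw [e4] at h4
    have h5 := ih (bit false :: bit b :: bit true :: l) (bit b :: l')
      (update (update z f ⟨bit b :: l', []⟩) g
        ⟨bit false :: bit b :: bit true :: l, (enc w).map bit⟩) (by simp) (by simp [hgf.symm])
    have h6 := Prog.Run.loopT (c := fun (_ : M) (x : F → Option α) => (x g).isSome)
      (by simp [Store.reads, Zip.peek, hg]) (h1.seq (h2.seq (h3.seq h4))) h5
    have e : update (update (update (update z f ⟨bit b :: l', []⟩) g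
        ⟨bit false :: bit b :: bit true :: l, (enc w).map bit⟩) f
        ⟨(w.map bit).reverse ++ bit b :: l', []⟩) g
        ⟨((enc w).map bit).reverse ++ bit false :: bit b :: bit true :: l, []⟩ =
        update (update z f ⟨((b :: w).map bit).reverse ++ l', []⟩) g
          ⟨((enc (b :: w)).map bit).reverse ++ l, []⟩ := by
      rw [henc]
      funext x
      rcases eq_or_ne x g with rfl | hx1
      · simp
      · rcases eq_or_ne x f with rfl | hx2
        · simp [hx1]
        · simp [hx1, hx2]
    rw [e] at h6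
    exact h6.mono (by simp only [List.length_cons]; omega)

/-- Append a word computed from the control value to a file. -/
noncomputable def emitProg (bit : Bool → α) (p : SProg) (st tmp : F) (ι : ℕ → F) (fo : F) :
    Prog M F α :=
  .seq (callProg bit p st tmp ι) (.seq (decR tmp fo) (clr tmp))

theorem exists_emit {β : Type*} [Enc β] {f : β → List Bool} (hf : PT ∅ f) :
    ∃ (p : SProg) (W c : ℕ), 2 ≤ W ∧ ∀ {M F α : Type} [DecidableEq F] {d : α} {bit : Bool → α}
      {ι : ℕ → F} {st tmp : F}, Lay ι W st tmp → bit true ≠ bit false →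
      ∀ (fo : F), fo ≠ tmp → (∀ i < W, ι i ≠ fo) →
      ∀ (m : M) (z : F → Zip α) (a : β) (l : List α), HoldsVal bit z st a → Free ι W tmp z →
        z fo = ⟨l, []⟩ →
        Prog.Run d (emitProg bit p st tmp ι fo : Prog M F α) ⟨m, z⟩ (pb c (esize a))
          ⟨m, update z fo ⟨((f a).map bit).reverse ++ l, []⟩⟩ := by
  obtain ⟨p, W, c, hW, h⟩ := exists_call hf
  obtain ⟨c1, hc1⟩ := hf.pbd
  have hPB : PB (fun n => pb c n + (6 * pb c1 n + 1) + 2) :=
    ((PB.pb c).add (((PB.const 6).mul (PB.pb c1)).add (PB.const 1))).add (PB.const 2)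
  obtain ⟨c', hc'⟩ := hPB
  refine ⟨p, W, c', hW, ?_⟩
  intro M F α _ d bit ι st tmp hL hb fo hfo hιfo m z a l hst hfree hzo
  have r1 := h (d := d) (M := M) hL.inj hb hL.ne hL.st hL.tmp m z a hst hfree.1 hfree.2
  have r2 := run_decR (d := d) (bit := bit) (g := tmp) (f := fo) hfo.symm m (f a) [] l
    (update z tmp ⟨[], (enc (f a)).map bit⟩) (by simp) (by simp [hfo, hzo])
  set z2 := update (update (update z tmp ⟨[], (enc (f a)).map bit⟩) fo
    ⟨((f a).map bit).reverse ++ l, []⟩) tmp ⟨((enc (f a)).map bit).reverse ++ [], []⟩ with hz2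
  have r3 := run_clr (d := d) tmp m z2
  have e3 : update z2 tmp ⟨[], []⟩ = update z fo ⟨((f a).map bit).reverse ++ l, []⟩ := by
    funext g
    rcases eq_or_ne g tmp with rfl | hg
    · simp [hfo.symm, hfree.1]
    · rcases eq_or_ne g fo with rfl | hg'
      · simp [hg, hz2]
      · simp [hg, hg', hz2]
  rw [e3] at r3
  refine (r1.seq (r2.seq r3)).mono ?_
  refine le_trans ?_ (hc' (esize a))
  show _ ≤ pb c (esize a) + (6 * pb c1 (esize a) + 1) + 2
  have hlen : (f a).length ≤ esize (f a) := by
    generalize f a = w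
    induction w with
    | nil => simp
    | cons b w ih =>
      simp only [esize] at ih ⊢
      rw [Vale.Agent.Lib.PolyTime.enc_cons, Vale.Agent.Lib.PolyTime.length_pr]
      simp only [List.length_cons]
      omega
  have := (hlen.trans (hc1 a))
  have := Nat.mul_le_mul_left 6 this
  omega

/-- Write a word computed from the control value on an empty file. -/
noncomputable def writeProg (bit : Bool → α) (p : SProg) (st tmp : F) (ι : ℕ → F) (fo : F) :
    Prog M F α :=
  .seq (emitProg bit p st tmp ι fo) (op1 fo .rew)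

theorem exists_write {β : Type*} [Enc β] {f : β → List Bool} (hf : PT ∅ f) :
    ∃ (p : SProg) (W c : ℕ), 2 ≤ W ∧ ∀ {M F α : Type} [DecidableEq F] {d : α} {bit : Bool → α}
      {ι : ℕ → F} {st tmp : F}, Lay ι W st tmp → bit true ≠ bit false →
      ∀ (fo : F), fo ≠ tmp → (∀ i < W, ι i ≠ fo) →
      ∀ (m : M) (z : F → Zip α) (a : β), HoldsVal bit z st a → Free ι W tmp z →
        z fo = ⟨[], []⟩ →
        Prog.Run d (writeProg bit p st tmp ι fo : Prog M F α) ⟨m, z⟩ (pb c (esize a))
          ⟨m, update z fo ⟨[], (f a).map bit⟩⟩ := by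
  obtain ⟨p, W, c, hW, h⟩ := exists_emit hf
  obtain ⟨c', hc'⟩ := (PB.pb c).add (PB.const 1)
  refine ⟨p, W, c', hW, ?_⟩
  intro M F α _ d bit ι st tmp hL hb fo hfo hιfo m z a hst hfree hzo
  have r1 := h (d := d) (M := M) hL hb fo hfo hιfo m z a [] hst hfree hzo
  have r2 := run_op1 (d := d) fo .rew m (update z fo ⟨((f a).map bit).reverse ++ [], []⟩)
  have e2 : update (update z fo ⟨((f a).map bit).reverse ++ [], []⟩) fo
      (Op.rew.app d (update z fo ⟨((f a).map bit).reverse ++ [], []⟩ fo)) =
      update z fo ⟨[], (f a).map bit⟩ := by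
    simp [Op.app]
  rw [e2] at r2
  exact (r1.seq r2).mono (hc' (esize a))

end Vale.Agent.P338.R2.H235
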