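import Vale.Agent.Lib.PolyTime.NatArith2
import Vale.Agent.P338.R2.H898.Zip

/-!
Slow control: programs of the polynomial time library (stacks of bits) run as programs on files.
-/

namespace Vale.Agent.P338.R2.H235

open Vale.Agent.P338.R2.H898 Function
open Vale.Agent.Lib (PolyTime.Word PolyTime.Eval PolyTime.FP PolyTime.PT PolyTime.Clean)

abbrev SProg := Vale.Agent.Lib.PolyTime.Prog
abbrev Word := Vale.Agent.Lib.PolyTime.Word

open Classical

variable {M F α : Type}

/-- A file holding a stack. -/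
def stk (bit : Bool → α) (w : Word) : Zip α := ⟨w.map bit, []⟩

/-- One operation on one file. -/
def op1 (f : F) (o : Op α) : Prog M F α := .prim fun m _ => (m, some (f, o))

/-- No operation. -/
def nop : Prog M F α := .prim fun m _ => (m, none)

/-- Push. -/
def push (f : F) (a : α) : Prog M F α := .seq (op1 f (.write a)) (op1 f .right)

/-- Pop. -/
def pop (f : F) : Prog M F α := .seq (op1 f .left) (op1 f .trunc)

/-- Translation of stack programs. -/
noncomputable def tr (bit : Bool → α) (ι : ℕ → F) : SProg → Prog M F α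
  | .skip => nop
  | .push i b => push (ι i) (bit b)
  | .pop i => pop (ι i)
  | .query _ j => push (ι j) (bit false)
  | .seq p q => .seq (tr bit ι p) (tr bit ι q)
  | .ite i p q r => .seq (op1 (ι i) .left) (.ite (fun _ x => (x (ι i)).isNone) (tr bit ι p)
      (.ite (fun _ x => decide (x (ι i) = some (bit false)))
        (.seq (op1 (ι i) .right) (tr bit ι q)) (.seq (op1 (ι i) .right) (tr bit ι r))))
  | .loop i p => .seq (op1 (ι i) .left) (.loop (fun _ x => (x (ι i)).isSome)
      (.seq (op1 (ι i) .right) (.seq (tr bit ι p) (op1 (ι i) .left))))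

/-- All stacks of a program are below `W`. -/
def Below (W : ℕ) : SProg → Prop
  | .skip => True
  | .push i _ => i < W
  | .pop i => i < W
  | .query i j => i < W ∧ j < W
  | .seq p q => Below W p ∧ Below W q
  | .ite i p q r => i < W ∧ Below W p ∧ Below W q ∧ Below W r
  | .loop i p => i < W ∧ Below W p

theorem Below.mono {V W : ℕ} (h : V ≤ W) : ∀ {p : SProg}, Below V p → Below W p
  | .skip, _ => trivial
  | .push _ _, hp => lt_of_lt_of_le hp h
  | .pop _, hp => lt_of_lt_of_le hp h
  | .query _ _, hp => ⟨lt_of_lt_of_le hp.1 h, lt_of_lt_of_le hp.2 h⟩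
  | .seq _ _, hp => ⟨hp.1.mono h, hp.2.mono h⟩
  | .ite _ _ _ _, hp => ⟨lt_of_lt_of_le hp.1 h, hp.2.1.mono h, hp.2.2.1.mono h, hp.2.2.2.mono h⟩
  | .loop _ _, hp => ⟨lt_of_lt_of_le hp.1 h, hp.2.mono h⟩

theorem exists_below (p : SProg) : ∃ W, Below W p := by
  induction p with
  | skip => exact ⟨0, trivial⟩
  | push i b => exact ⟨i + 1, Nat.lt_succ_self i⟩
  | pop i => exact ⟨i + 1, Nat.lt_succ_self i⟩
  | query i j => exact ⟨max i j + 1, Nat.lt_succ_of_le (le_max_left _ _),
      Nat.lt_succ_of_le (le_max_right _ _)⟩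
  | seq p q ihp ihq =>
    obtain ⟨V, hV⟩ := ihp
    obtain ⟨W, hW⟩ := ihq
    exact ⟨max V W, hV.mono (le_max_left _ _), hW.mono (le_max_right _ _)⟩
  | ite i p q r ihp ihq ihr =>
    obtain ⟨V, hV⟩ := ihp
    obtain ⟨W, hW⟩ := ihq
    obtain ⟨U, hU⟩ := ihr
    refine ⟨max (i + 1) (max V (max W U)), ?_, hV.mono (by simp), hW.mono (by simp),
      hU.mono (by simp)⟩
    exact lt_of_lt_of_le (Nat.lt_succ_self i) (le_max_left _ _)
  | loop i p ih =>
    obtain ⟨V, hV⟩ := ih
    exact ⟨max (i + 1) V, lt_of_lt_of_le (Nat.lt_succ_self i) (le_max_left _ _),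
      hV.mono (le_max_right _ _)⟩

section run

variable [DecidableEq F] {d : α} {bit : Bool → α} {ι : ℕ → F} {W : ℕ}

theorem run_op1 (f : F) (o : Op α) (m : M) (z : F → Zip α) :
    Prog.Run d (op1 f o : Prog M F α) ⟨m, z⟩ 1 ⟨m, update z f (o.app d (z f))⟩ :=
  Prog.Run.prim _ _

theorem run_nop (m : M) (z : F → Zip α) : Prog.Run d (nop : Prog M F α) ⟨m, z⟩ 1 ⟨m, z⟩ :=
  Prog.Run.prim _ _

theorem run_push (f : F) (a : α) (m : M) (z : F → Zip α) (l : List α) (h : z f = ⟨l, []⟩) :
    Prog.Run d (push f a : Prog M F α) ⟨m, z⟩ 2 ⟨m, update z f ⟨a :: l, []⟩⟩ := by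
  have h1 := run_op1 (d := d) f (.write a) m z
  have h2 := run_op1 (d := d) f .right m (update z f ((Op.write a).app d (z f)))
  have h3 := h1.seq h2
  simpa [push, h, Op.app] using h3

theorem run_pop (f : F) (m : M) (z : F → Zip α) (l : List α) (h : z f = ⟨l, []⟩) :
    Prog.Run d (pop f : Prog M F α) ⟨m, z⟩ 2 ⟨m, update z f ⟨l.tail, []⟩⟩ := by
  have h1 := run_op1 (d := d) f .left m z
  have h2 := run_op1 (d := d) f .trunc m (update z f ((Op.left).app d (z f)))
  have h3 := h1.seq h2
  cases l with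
  | nil => simpa [pop, h, Op.app] using h3
  | cons a l => simpa [pop, h, Op.app] using h3

/-- The files of `z` hold the stacks of `s`. -/
def Holds (bit : Bool → α) (ι : ℕ → F) (W : ℕ) (s : ℕ → Word) (z : F → Zip α) : Prop :=
  ∀ i < W, z (ι i) = stk bit (s i)

/-- Nothing but the stacks has changed. -/
def Frame (ι : ℕ → F) (W : ℕ) (z z' : F → Zip α) : Prop :=
  ∀ f, (∀ i < W, ι i ≠ f) → z' f = z f

omit [DecidableEq F] in
theorem Frame.refl (ι : ℕ → F) (W : ℕ) (z : F → Zip α) : Frame ι W z z := fun _ _ => rfl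

omit [DecidableEq F] in
theorem Frame.trans {z z' z'' : F → Zip α} (h : Frame ι W z z') (h' : Frame ι W z' z'') :
    Frame ι W z z'' := fun g hg => (h' g hg).trans (h g hg)

theorem Frame.upd {i : ℕ} (hi : i < W) (z : F → Zip α) (v : Zip α) :
    Frame ι W z (update z (ι i) v) := fun _ hg =>
  Function.update_of_ne (hg i hi).symm _ _

theorem Holds.update (hι : ∀ i < W, ∀ j < W, ι i = ι j → i = j) {s : ℕ → Word} {z : F → Zip α}
    (h : Holds bit ι W s z) {i : ℕ} (hi : i < W) (w : Word) :
    Holds bit ι W (update s i w) (update z (ι i) (stk bit w)) := by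
  intro j hj
  by_cases hij : j = i
  · subst hij
    simp
  · rw [Function.update_of_ne hij, Function.update_of_ne (fun e => hij (hι _ hj _ hi e)), h j hj]

omit [DecidableEq F] in
theorem left_stk_cons (b : Bool) (w : Word) :
    Op.left.app d (stk bit (b :: w)) = ⟨w.map bit, [bit b]⟩ := rfl

omit [DecidableEq F] in
theorem left_stk_nil : Op.left.app d (stk bit []) = stk bit [] := rfl

theorem run_tr (hι : ∀ i < W, ∀ j < W, ι i = ι j → i = j) (hb : bit true ≠ bit false)
    {p : SProg} {s s' : ℕ → Word} {t : ℕ}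
    (h : Vale.Agent.Lib.PolyTime.Eval ∅ p s t s') : Below W p →
    ∀ (m : M) (z : F → Zip α), Holds bit ι W s z →
      ∃ z', Prog.Run d (tr bit ι p : Prog M F α) ⟨m, z⟩ (4 * t) ⟨m, z'⟩ ∧
        Holds bit ι W s' z' ∧ Frame ι W z z' := by
  induction h with
  | skip s =>
    intro _ m z hz
    exact ⟨z, (run_nop m z).mono (by norm_num), hz, Frame.refl _ _ _⟩
  | push s i b =>
    intro hp m z hz
    refine ⟨update z (ι i) (stk bit (b :: s i)), ?_, hz.update hι hp _, Frame.upd hp _ _⟩
    exact (run_push (ι i) (bit b) m z _ (hz i hp)).mono (by norm_num)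
  | pop s i =>
    intro hp m z hz
    refine ⟨update z (ι i) (stk bit (s i).tail), ?_, hz.update hι hp _, Frame.upd hp _ _⟩
    have := (run_pop (d := d) (ι i) m z _ (hz i hp)).mono (show 2 ≤ 4 * 1 by norm_num)
    simpa [tr, stk, List.map_tail] using this
  | query_yes s i j h => exact absurd h (Set.notMem_empty _)
  | query_no s i j h =>
    intro hp m z hz
    refine ⟨update z (ι j) (stk bit (false :: s j)), ?_, hz.update hι hp.2 _,
      Frame.upd hp.2 _ _⟩
    exact (run_push (ι j) (bit false) m z _ (hz j hp.2)).mono (by norm_num)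
  | seq h1 h2 ih1 ih2 =>
    intro hp m z hz
    obtain ⟨z1, r1, H1, F1⟩ := ih1 hp.1 m z hz
    obtain ⟨z2, r2, H2, F2⟩ := ih2 hp.2 m z1 H1
    exact ⟨z2, (r1.seq r2).mono (by omega), H2, F1.trans F2⟩
  | @ite_nil p q r s s' t i hi h1 ih =>
    intro hp m z hz
    obtain ⟨z1, r1, H1, F1⟩ := ih hp.2.1 m z hz
    have hz0 : z (ι i) = stk bit [] := by rw [hz i hp.1, hi]
    have e : update z (ι i) (Op.left.app d (z (ι i))) = z := by
      rw [hz0, left_stk_nil, ← hz0, Function.update_eq_self]
    have r0 := run_op1 (d := d) (ι i) Op.left m z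
    rw [e] at r0
    refine ⟨z1, (r0.seq (Prog.Run.iteT ?_ r1)).mono (by omega), H1, F1⟩
    simp [Store.reads, hz0, stk, Zip.peek]
  | @ite_false p q r s s' t i hi h1 ih =>
    intro hp m z hz
    obtain ⟨z1, r1, H1, F1⟩ := ih hp.2.2.1 m z hz
    obtain ⟨w, hw⟩ : ∃ w, s i = false :: w := by
      cases hs : s i with
      | nil => simp [hs] at hi
      | cons b w => simp [hs] at hi; exact ⟨w, by rw [hi]⟩
    have hz0 : z (ι i) = stk bit (false :: w) := by rw [hz i hp.1, hw]
    have r0 := run_op1 (d := d) (ι i) Op.left m z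
    have e : update z (ι i) (Op.left.app d (z (ι i))) =
        update z (ι i) ⟨w.map bit, [bit false]⟩ := by rw [hz0, left_stk_cons]
    rw [e] at r0
    have r2 := run_op1 (d := d) (ι i) Op.right m (update z (ι i) ⟨w.map bit, [bit false]⟩)
    have e2 : update (update z (ι i) ⟨w.map bit, [bit false]⟩) (ι i)
        (Op.right.app d (update z (ι i) ⟨w.map bit, [bit false]⟩ (ι i))) = z := by
      rw [Function.update_self, Function.update_idem]
      show update z (ι i) (⟨bit false :: w.map bit, []⟩ : Zip α) = z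
      have : (⟨bit false :: w.map bit, []⟩ : Zip α) = z (ι i) := by rw [hz0]; rfl
      rw [this, Function.update_eq_self]
    rw [e2] at r2
    refine ⟨z1, (r0.seq (Prog.Run.iteF ?_ (Prog.Run.iteT ?_ (r2.seq r1)))).mono (by omega),
      H1, F1⟩
    · simp [Store.reads, Zip.peek]
    · simp [Store.reads, Zip.peek]
  | @ite_true p q r s s' t i hi h1 ih =>
    intro hp m z hz
    obtain ⟨z1, r1, H1, F1⟩ := ih hp.2.2.2 m z hz
    obtain ⟨w, hw⟩ : ∃ w, s i = true :: w := by
      cases hs : s i with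
      | nil => simp [hs] at hi
      | cons b w => simp [hs] at hi; exact ⟨w, by rw [hi]⟩
    have hz0 : z (ι i) = stk bit (true :: w) := by rw [hz i hp.1, hw]
    have r0 := run_op1 (d := d) (ι i) Op.left m z
    have e : update z (ι i) (Op.left.app d (z (ι i))) =
        update z (ι i) ⟨w.map bit, [bit true]⟩ := by rw [hz0, left_stk_cons]
    rw [e] at r0
    have r2 := run_op1 (d := d) (ι i) Op.right m (update z (ι i) ⟨w.map bit, [bit true]⟩)
    have e2 : update (update z (ι i) ⟨w.map bit, [bit true]⟩) (ι i)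
        (Op.right.app d (update z (ι i) ⟨w.map bit, [bit true]⟩ (ι i))) = z := by
      rw [Function.update_self, Function.update_idem]
      show update z (ι i) (⟨bit true :: w.map bit, []⟩ : Zip α) = z
      have : (⟨bit true :: w.map bit, []⟩ : Zip α) = z (ι i) := by rw [hz0]; rfl
      rw [this, Function.update_eq_self]
    rw [e2] at r2
    refine ⟨z1, (r0.seq (Prog.Run.iteF ?_ (Prog.Run.iteF ?_ (r2.seq r1)))).mono (by omega),
      H1, F1⟩
    · simp [Store.reads, Zip.peek]
    · simp [Store.reads, Zip.peek, hb]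
  | @loop_stop p s i hi =>
    intro hp m z hz
    have hz0 : z (ι i) = stk bit [] := by rw [hz i hp.1, hi]
    have e : update z (ι i) (Op.left.app d (z (ι i))) = z := by
      rw [hz0, left_stk_nil, ← hz0, Function.update_eq_self]
    have r0 := run_op1 (d := d) (ι i) Op.left m z
    rw [e] at r0
    refine ⟨z, (r0.seq (Prog.Run.loopF ?_)).mono (by omega), hz, Frame.refl _ _ _⟩
    simp [Store.reads, hz0, stk, Zip.peek]
  | @loop_step p s s1 s2 t t' i hi h1 h2 ih1 ih2 =>
    intro hp m z hz
    obtain ⟨z1, r1, H1, F1⟩ := ih1 hp.2 m z hz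
    obtain ⟨z2, r2, H2, F2⟩ := ih2 hp m z1 H1
    obtain ⟨b, w, hw⟩ : ∃ b w, s i = b :: w := by
      cases hs : s i with
      | nil => exact absurd hs hi
      | cons b w => exact ⟨b, w, rfl⟩
    have hz0 : z (ι i) = stk bit (b :: w) := by rw [hz i hp.1, hw]
    have r0 := run_op1 (d := d) (ι i) Op.left m z
    have e : update z (ι i) (Op.left.app d (z (ι i))) =
        update z (ι i) ⟨w.map bit, [bit b]⟩ := by rw [hz0, left_stk_cons]
    rw [e] at r0
    have r3 := run_op1 (d := d) (ι i) Op.right m (update z (ι i) ⟨w.map bit, [bit b]⟩)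
    have e2 : update (update z (ι i) ⟨w.map bit, [bit b]⟩) (ι i)
        (Op.right.app d (update z (ι i) ⟨w.map bit, [bit b]⟩ (ι i))) = z := by
      rw [Function.update_self, Function.update_idem]
      show update z (ι i) (⟨bit b :: w.map bit, []⟩ : Zip α) = z
      have : (⟨bit b :: w.map bit, []⟩ : Zip α) = z (ι i) := by rw [hz0]; rfl
      rw [this, Function.update_eq_self]
    rw [e2] at r3
    -- the rest of the loop
    obtain ⟨u, hu, he⟩ := r2
    cases he with
    | @seq _ _ _ sm _ ta tb ha hb' =>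
      cases ha
      have rl : Prog.Run d (.loop (fun _ x => (x (ι i)).isSome)
          (.seq (op1 (ι i) .right) (.seq (tr bit ι p) (op1 (ι i) .left))) : Prog M F α)
          ⟨m, update z1 (ι i) (Op.left.app d (z1 (ι i)))⟩ tb ⟨m, z2⟩ := ⟨tb, le_rfl, hb'⟩
      have r4 := run_op1 (d := d) (ι i) Op.left m z1
      refine ⟨z2, (r0.seq (Prog.Run.loopT ?_ (r3.seq (r1.seq r4)) rl)).mono (by omega),
        H2, F1.trans F2⟩
      simp [Store.reads, Zip.peek]

/-! ### Copying -/

/-- Copy the symbol under the head of `g` to `f` and advance on `f`. -/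
def cpy (g f : F) : Prog M F α :=
  .seq (.prim fun m x => (m, (x g).map fun a => (f, .write a))) (op1 f .right)

omit [DecidableEq F] in
/-- Copy the rest of `g` to `f`. -/
def copyR (g f : F) : Prog M F α :=
  .loop (fun _ x => (x g).isSome) (.seq (cpy g f) (op1 g .right))

/-- Pop all symbols of `g` and append them to `f`. -/
def popAll (g f : F) : Prog M F α :=
  .seq (op1 g .left) (.loop (fun _ x => (x g).isSome)
    (.seq (cpy g f) (.seq (op1 g .trunc) (op1 g .left))))

/-- Make a file empty. -/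
def clr (f : F) : Prog M F α := .seq (op1 f .rew) (op1 f .trunc)

theorem run_cpy {g f : F} {a : α} {l l' r : List α} (m : M) (z : F → Zip α)
    (hg : z g = ⟨l, a :: r⟩) (hf : z f = ⟨l', []⟩) :
    Prog.Run d (cpy g f : Prog M F α) ⟨m, z⟩ 2 ⟨m, update z f ⟨a :: l', []⟩⟩ := by
  have h1 : Prog.Run d (.prim fun m x => (m, (x g).map fun a => (f, .write a)) : Prog M F α)
      ⟨m, z⟩ 1 ⟨m, update z f ⟨l', [a]⟩⟩ := by
    refine Prog.Run.prim' ?_
    simp [Store.reads, hg, Zip.peek, Prog.appAct, hf, Op.app]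
  have h2 := run_op1 (d := d) f .right m (update z f ⟨l', [a]⟩)
  have h3 := h1.seq h2
  simpa [cpy, Op.app] using h3

theorem run_copyR {g f : F} (hgf : g ≠ f) (m : M) (r : List α) : ∀ (l l' : List α)
    (z : F → Zip α), z g = ⟨l, r⟩ → z f = ⟨l', []⟩ →
    Prog.Run d (copyR g f : Prog M F α) ⟨m, z⟩ (4 * r.length + 1)
      ⟨m, update (update z f ⟨r.reverse ++ l', []⟩) g ⟨r.reverse ++ l, []⟩⟩ := by
  induction r with
  | nil =>
    intro l l' z hg hf
    have e : update (update z f ⟨([] : List α).reverse ++ l', []⟩) g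
        ⟨([] : List α).reverse ++ l, []⟩ = z := by
      funext x
      rcases eq_or_ne x g with rfl | hx1
      · simp [hg]
      · rcases eq_or_ne x f with rfl | hx2
        · simp [hx1, hf]
        · simp [hx1, hx2]
    rw [e]
    exact (Prog.Run.loopF (by simp [Store.reads, Zip.peek, hg])).mono (by omega)
  | cons a r ih =>
    intro l l' z hg hf
    have h1 := run_cpy (d := d) m z hg hf
    have h2 := run_op1 (d := d) g .right m (update z f ⟨a :: l', []⟩)
    have h3 := ih (a :: l) (a :: l') (update (update z f ⟨a :: l', []⟩) g ⟨a :: l, r⟩)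
      (by simp) (by simp [hgf.symm])
    have e2 : update (update z f ⟨a :: l', []⟩) g
        (Op.right.app d (update z f ⟨a :: l', []⟩ g)) =
          update (update z f ⟨a :: l', []⟩) g ⟨a :: l, r⟩ := by
      simp [hgf, hg, Op.app]
    rw [e2] at h2
    have h4 := Prog.Run.loopT (c := fun (_ : M) (x : F → Option α) => (x g).isSome)
      (by simp [Store.reads, Zip.peek, hg]) (h1.seq h2) h3
    have e : update (update (update (update z f ⟨a :: l', []⟩) g ⟨a :: l, r⟩) f
        ⟨r.reverse ++ a :: l', []⟩) g ⟨r.reverse ++ a :: l, []⟩ =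
        update (update z f ⟨(a :: r).reverse ++ l', []⟩) g ⟨(a :: r).reverse ++ l, []⟩ := by
      funext x
      rcases eq_or_ne x g with rfl | hx1
      · simp
      · rcases eq_or_ne x f with rfl | hx2
        · simp [hx1]
        · simp [hx1, hx2]
    rw [e] at h4
    exact h4.mono (by simp only [List.length_cons]; omega)

theorem run_popAll {g f : F} (hgf : g ≠ f) (m : M) (l : List α) : ∀ (l' : List α)
    (z : F → Zip α), z g = ⟨l, []⟩ → z f = ⟨l', []⟩ →
    Prog.Run d (popAll g f : Prog M F α) ⟨m, z⟩ (5 * l.length + 2)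
      ⟨m, update (update z f ⟨l.reverse ++ l', []⟩) g ⟨[], []⟩⟩ := by
  induction l with
  | nil =>
    intro l' z hg hf
    have e : update (update z f ⟨([] : List α).reverse ++ l', []⟩) g ⟨[], []⟩ = z := by
      funext x
      rcases eq_or_ne x g with rfl | hx1
      · simp [hg]
      · rcases eq_or_ne x f with rfl | hx2
        · simp [hx1, hf]
        · simp [hx1, hx2]
    rw [e]
    have h0 := run_op1 (d := d) g .left m z
    have e0 : update z g (Op.left.app d (z g)) = z := by
      rw [hg]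
      show update z g ⟨[], []⟩ = z
      rw [← hg, Function.update_eq_self]
    rw [e0] at h0
    exact (h0.seq (Prog.Run.loopF (by simp [Store.reads, Zip.peek, hg]))).mono (by simp)
  | cons a l ih =>
    intro l' z hg hf
    have h0 := run_op1 (d := d) g .left m z
    have e0 : update z g (Op.left.app d (z g)) = update z g ⟨l, [a]⟩ := by
      rw [hg]; rfl
    rw [e0] at h0
    have h1 := run_cpy (d := d) (g := g) (f := f) (a := a) (l := l) (l' := l') (r := []) m
      (update z g ⟨l, [a]⟩) (by simp) (by simp [hgf.symm, hf])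
    have h2 := run_op1 (d := d) g .trunc m (update (update z g ⟨l, [a]⟩) f ⟨a :: l', []⟩)
    have e2 : update (update (update z g ⟨l, [a]⟩) f ⟨a :: l', []⟩) g
        (Op.trunc.app d (update (update z g ⟨l, [a]⟩) f ⟨a :: l', []⟩ g)) =
        update (update z f ⟨a :: l', []⟩) g ⟨l, []⟩ := by
      funext x
      rcases eq_or_ne x g with rfl | hx1
      · simp [hgf, Op.app]
      · rcases eq_or_ne x f with rfl | hx2
        · simp [hx1]
        · simp [hx1, hx2]
    rw [e2] at h2
    have h3 := ih (a :: l') (update (update z f ⟨a :: l', []⟩) g ⟨l, []⟩)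
      (by simp) (by simp [hgf.symm])
    obtain ⟨u, hu, he⟩ := h3
    cases he with
    | @seq _ _ _ sm _ ta tb ha hb' =>
      have h5 : Prog.Run d (op1 g .left : Prog M F α)
          ⟨m, update (update z f ⟨a :: l', []⟩) g ⟨l, []⟩⟩ ta sm := ⟨ta, le_rfl, ha⟩
      have h4 := Prog.Run.loopT (c := fun (_ : M) (x : F → Option α) => (x g).isSome)
        (by simp [Store.reads, Zip.peek]) (h1.seq (h2.seq h5)) ⟨tb, le_rfl, hb'⟩
      have e : update (update (update (update z f ⟨a :: l', []⟩) g ⟨l, []⟩) f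
          ⟨l.reverse ++ a :: l', []⟩) g ⟨[], []⟩ =
          update (update z f ⟨(a :: l).reverse ++ l', []⟩) g ⟨[], []⟩ := by
        funext x
        rcases eq_or_ne x g with rfl | hx1
        · simp
        · rcases eq_or_ne x f with rfl | hx2
          · simp [hx1]
          · simp [hx1, hx2]
      rw [e] at h4
      refine (h0.seq h4).mono ?_
      simp only [List.length_cons]
      omega

theorem run_clr (f : F) (m : M) (z : F → Zip α) :
    Prog.Run d (clr f : Prog M F α) ⟨m, z⟩ 2 ⟨m, update z f ⟨[], []⟩⟩ := by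
  have h1 := run_op1 (d := d) f .rew m z
  have h2 := run_op1 (d := d) f .trunc m (update z f (Op.rew.app d (z f)))
  have h3 := h1.seq h2
  simpa [clr, Op.app] using h3

/-! ### The slow function call -/

/-- The call: `fi` is read, the result is written on `fo`; `scr` are the scratch files. -/
noncomputable def callProg (bit : Bool → α) (p : SProg) (fi fo : F) (ι : ℕ → F) : Prog M F α :=
  .seq (copyR fi (ι 1)) (.seq (op1 fi .rew) (.seq (popAll (ι 1) (ι 0)) (.seq (tr bit ι p)
    (.seq (popAll (ι 1) fo) (.seq (op1 fo .rew) (clr (ι 0)))))))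

theorem run_call (hι : ∀ i < W, ∀ j < W, ι i = ι j → i = j) (hb : bit true ≠ bit false)
    {p : SProg} (hp : Below W p) {w c : ℕ} {g : Word → Word} (hW : 2 ≤ W)
    (hg : Vale.Agent.Lib.PolyTime.Clean ∅ p w g (Vale.Agent.Lib.PolyTime.pb c))
    {fi fo : F} (hio : fi ≠ fo) (hi : ∀ i < W, ι i ≠ fi) (ho : ∀ i < W, ι i ≠ fo)
    (m : M) (z : F → Zip α) (x : Word) (hzi : z fi = ⟨[], x.map bit⟩) (hzo : z fo = ⟨[], []⟩)
    (hz : ∀ i < W, z (ι i) = ⟨[], []⟩) :
    Prog.Run d (callProg bit p fi fo ι : Prog M F α) ⟨m, z⟩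
      (9 * x.length + 9 + 9 * Vale.Agent.Lib.PolyTime.pb c x.length)
      ⟨m, update z fo ⟨[], (g x).map bit⟩⟩ := by
  have h0W : 0 < W := by omega
  have h1W : 1 < W := by omega
  have h01 : ι 0 ≠ ι 1 := fun e => absurd (hι 0 h0W 1 h1W e) (by norm_num)
  have r1 := run_copyR (d := d) (g := fi) (f := ι 1) (hi 1 h1W).symm m (x.map bit) [] [] z hzi
    (hz 1 h1W)
  set z1 := update (update z (ι 1) ⟨(x.map bit).reverse ++ [], []⟩) fi
    ⟨(x.map bit).reverse ++ [], []⟩ with hz1
  have r2 := run_op1 (d := d) fi .rew m z1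
  have e2 : update z1 fi (Op.rew.app d (z1 fi)) = update z (ι 1) ⟨(x.map bit).reverse, []⟩ := by
    funext f
    rcases eq_or_ne f fi with rfl | hf
    · simp [hz1, Op.app, (hi 1 h1W).symm, hzi]
    · simp [hz1, hf]
  rw [e2] at r2
  set z2 := update z (ι 1) ⟨(x.map bit).reverse, []⟩ with hz2
  have r3 := run_popAll (d := d) (g := ι 1) (f := ι 0) h01.symm m ((x.map bit).reverse) [] z2
    (by simp [hz2]) (by simp [hz2, h01, hz 0 h0W])
  have e3 : update (update z2 (ι 0) ⟨(x.map bit).reverse.reverse ++ [], []⟩) (ι 1) ⟨[], []⟩ =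
      update z (ι 0) ⟨x.map bit, []⟩ := by
    funext f
    rcases eq_or_ne f (ι 1) with rfl | hf
    · simp [h01.symm, hz 1 h1W]
    · rcases eq_or_ne f (ι 0) with rfl | hf'
      · simp [hf]
      · simp [hz2, hf, hf']
  rw [e3] at r3
  set z3 := update z (ι 0) ⟨x.map bit, []⟩ with hz3
  obtain ⟨t, ht, he⟩ := hg (fun i => if i = 0 then x else []) (by
    intro i h1 _
    rw [if_neg (by omega)])
  simp only [if_true] at ht he
  have hH : Holds bit ι W (fun i => if i = 0 then x else []) z3 := by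
    intro i hi'
    rcases Nat.eq_zero_or_pos i with rfl | hpos
    · simp [hz3, stk]
    · have : ι i ≠ ι 0 := fun e => absurd (hι i hi' 0 h0W e) (by omega)
      have h' : i ≠ 0 := by omega
      simp [hz3, this, hz i hi', stk, h']
  obtain ⟨z4, r4, H4, F4⟩ := run_tr (d := d) (M := M) hι hb he hp m z3 hH
  have hlen : (g x).length ≤ Vale.Agent.Lib.PolyTime.pb c x.length := by
    have := he.length_le 1
    simp at this
    omega
  have h41 : z4 (ι 1) = ⟨(g x).map bit, []⟩ := by
    rw [H4 1 h1W]; simp [stk]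
  have h4o : z4 fo = ⟨[], []⟩ := by
    rw [F4 fo (fun i hi' => ho i hi')]
    simp [hz3, (ho 0 h0W).symm, hzo]
  have r5 := run_popAll (d := d) (g := ι 1) (f := fo) (ho 1 h1W) m ((g x).map bit) [] z4 h41 h4o
  set z5 := update (update z4 fo ⟨((g x).map bit).reverse ++ [], []⟩) (ι 1) ⟨[], []⟩ with hz5
  have r6 := run_op1 (d := d) fo .rew m z5
  have r7 := run_clr (d := d) (ι 0) m (update z5 fo (Op.rew.app d (z5 fo)))
  have e7 : update (update z5 fo (Op.rew.app d (z5 fo))) (ι 0) ⟨[], []⟩ =
      update z fo ⟨[], (g x).map bit⟩ := by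
    funext f
    rcases eq_or_ne f fo with rfl | hf
    · simp [hz5, (ho 0 h0W).symm, (ho 1 h1W).symm, Op.app]
    · rcases eq_or_ne f (ι 0) with rfl | hf0
      · simp [hf, hz 0 h0W]
      · rcases eq_or_ne f (ι 1) with rfl | hf1
        · simp [hf0, hf, hz5, hz 1 h1W]
        · simp only [update_of_ne hf0, update_of_ne hf, hz5, update_of_ne hf1]
          by_cases hex : ∃ i < W, ι i = f
          · obtain ⟨i, hi', rfl⟩ := hex
            rw [H4 i hi', hz i hi']
            have h0 : i ≠ 0 := by rintro rfl; exact hf0 rfl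
            have h1 : i ≠ 1 := by rintro rfl; exact hf1 rfl
            simp [stk, h0, h1]
          · push Not at hex
            rw [F4 f hex, hz3, update_of_ne hf0]
  rw [e7] at r7
  refine (r1.seq (r2.seq (r3.seq (r4.seq (r5.seq (r6.seq r7)))))).mono ?_
  simp only [List.length_map, List.length_reverse]
  omega

/-- **Slow calls.** Every function computable in polynomial time (in the sense of the library
`PolyTime`) is computed by a program on files: the input is on the file `fi` and is kept, the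
output is written on the file `fo`, `W` further empty files are used and left empty. -/
theorem exists_call {β γ : Type*} [Vale.Agent.Lib.PolyTime.Enc β] [Vale.Agent.Lib.PolyTime.Enc γ]
    {f : β → γ} (hf : Vale.Agent.Lib.PolyTime.PT ∅ f) :
    ∃ (p : SProg) (W c : ℕ), 2 ≤ W ∧ ∀ {M F α : Type} [DecidableEq F] {d : α} {bit : Bool → α}
      {ι : ℕ → F}, (∀ i < W, ∀ j < W, ι i = ι j → i = j) → bit true ≠ bit false →
      ∀ {fi fo : F}, fi ≠ fo → (∀ i < W, ι i ≠ fi) → (∀ i < W, ι i ≠ fo) →
      ∀ (m : M) (z : F → Zip α) (a : β),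
        z fi = ⟨[], (Vale.Agent.Lib.PolyTime.enc a).map bit⟩ → z fo = ⟨[], []⟩ →
        (∀ i < W, z (ι i) = ⟨[], []⟩) →
        Prog.Run d (callProg bit p fi fo ι : Prog M F α) ⟨m, z⟩
          (Vale.Agent.Lib.PolyTime.pb c (Vale.Agent.Lib.PolyTime.esize a))
          ⟨m, update z fo ⟨[], (Vale.Agent.Lib.PolyTime.enc (f a)).map bit⟩⟩ := by
  obtain ⟨g, ⟨p, w, c, hw, hc⟩, hgf⟩ := hf
  obtain ⟨V, hV⟩ := exists_below p
  have hPB : Vale.Agent.Lib.PolyTime.PB (fun n => 9 * n + 9 + 9 * Vale.Agent.Lib.PolyTime.pb c n) :=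
    (((Vale.Agent.Lib.PolyTime.PB.const 9).mul Vale.Agent.Lib.PolyTime.PB.id).add
      (Vale.Agent.Lib.PolyTime.PB.const 9)).add
      ((Vale.Agent.Lib.PolyTime.PB.const 9).mul (Vale.Agent.Lib.PolyTime.PB.pb c))
  obtain ⟨c', hc'⟩ := hPB
  refine ⟨p, max w V, c', hw.trans (le_max_left _ _), ?_⟩
  intro M F α _ d bit ι hι hb fi fo hio hi ho m z a hzi hzo hz
  have := run_call (d := d) (M := M) hι hb (hV.mono (le_max_right _ _))
    (hw.trans (le_max_left _ _)) hc hio hi ho m z (Vale.Agent.Lib.PolyTime.enc a) hzi hzo hz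
  rw [hgf] at this
  exact this.mono (hc' _)

end run

end Vale.Agent.P338.R2.H235
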